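/-
Shared definitions for the team proof of statement S0423 (row 280).

Mathematical plan (helper37).  Write `t = 4/3`, `g = truncExpWeight`, `X_i` i.i.d. Exp(1),
`T = ∑ a_i X_i`.  Since `g(y) = P(Γ₂ > y)` (`Γ₂` = sum of two Exp(1)),
`E g(t + T) = 1 - ∫ ρ(x) S(x) dx` where `S(x) = P(T > x)` and `ρ` is the density of `Γ₂ - t`.
`S` is log-concave with mean zero, and for every such `S` one has
`∫ ρ S ≥ (4/9) e^{-1/3}` (a Grünbaum-type inequality; extremal `T = 2 (X - 1)`).
-/
import Mathlib

set_option autoImplicit false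

namespace Crest.Agent.Helper37

open MeasureTheory Set Real

/-- Density of `Γ₂ - 4/3` (`Γ₂` a Gamma(2,1) variable): `(x + 4/3) e^{-(x + 4/3)}` for `x > -4/3`. -/
noncomputable def rho (x : ℝ) : ℝ :=
  if -(4 / 3 : ℝ) < x then (x + 4 / 3) * Real.exp (-(x + 4 / 3)) else 0

/-- Indicator of the negative reals: the survival function `v ↦ P(0 > v)` of the constant `0`. -/
noncomputable def Theta (v : ℝ) : ℝ := if v < 0 then 1 else 0

/-- Primal operator on test functions: `(K b φ)(s) = E φ(s + b X)`, `X ~ Exp(1)`. -/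
noncomputable def K (b : ℝ) (φ : ℝ → ℝ) (s : ℝ) : ℝ :=
  ∫ y in Ioi (0 : ℝ), φ (s + b * y) * Real.exp (-y)

/-- Dual operator on survival functions: `(Kd b S)(v) = E S(v - b X)`; if `S` is the survival
function of `T` then `Kd b S` is the survival function of `T + b X`. -/
noncomputable def Kd (b : ℝ) (S : ℝ → ℝ) (v : ℝ) : ℝ :=
  ∫ y in Ioi (0 : ℝ), S (v - b * y) * Real.exp (-y)

/-- `G S s = 1 - ∫ ρ(x) S(x - s) dx`; if `S` is the survival function of `T` this is
`E g(4/3 + s + T)`. -/
noncomputable def G (S : ℝ → ℝ) (s : ℝ) : ℝ := 1 - ∫ x, rho x * S (x - s)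

/-- The `N`-dimensional integral of the statement, for a general test function `φ`. -/
noncomputable def Fint (N : ℕ) (a : Fin N → ℝ) (φ : ℝ → ℝ) : ℝ :=
  ∫ x in Set.pi Set.univ (fun _ : Fin N => Ioi (0 : ℝ)),
    φ (∑ i, a i * x i) * Real.exp (-∑ i, x i)

/-- `Good S m`: `S` is a positive log-concave survival function of mean `m`. -/
structure Good (S : ℝ → ℝ) (m : ℝ) : Prop where
  pos : ∀ x, 0 < S x
  le_one : ∀ x, S x ≤ 1
  anti : Antitone S
  conv : ConvexOn ℝ Set.univ (fun x => -Real.log (S x))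
  integrable : Integrable (fun x => S x - Theta x)
  mean : ∫ x, (S x - Theta x) = m

end Crest.Agent.Helper37
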